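import Mathlib.Analysis.Calculus.FDeriv.Mul
import Mathlib.Analysis.Calculus.FDeriv.Add
import Mathlib.Analysis.Calculus.FDeriv.Prod
import Mathlib.Analysis.Calculus.FDeriv.Pi
import Mathlib.Analysis.Calculus.FDeriv.Comp
import Mathlib.Analysis.Calculus.FDeriv.RestrictScalars
import Mathlib.Analysis.Calculus.Deriv.Basic
import Mathlib.Analysis.Calculus.ContDiff.Basic
import Mathlib.Analysis.Calculus.ContDiff.Operations
import Mathlib.Analysis.Calculus.FDeriv.Symmetric
import Mathlib.Analysis.Complex.Basic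
import Mathlib.Analysis.Complex.RealDeriv

/-!
# P267, RRK: the operators `∂/∂z̄_1, ∂/∂z̄_2, ∂/∂w̄_1, ∂/∂w̄_2` on `ℂ² × ℂ²`
-/

open scoped ContDiff

noncomputable section

namespace Vale.Agent.P267.H315

/-- `ℂ²` (`= Cm 2` of `P272.K.Stmt`). -/
abbrev V : Type := Fin 2 → ℂ

/-- `ℂ² × ℂ²`, with coordinates `(z, w)`. -/
abbrev VV : Type := V × V

section gen

variable {E : Type*} [NormedAddCommGroup E] [NormedSpace ℂ E]
  {W : Type*} [NormedAddCommGroup W] [NormedSpace ℂ W]

/-- `∂f/∂v̄` at `x`: `(D_v f + i D_{iv} f) / 2`. -/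
def dbv (v : E) (f : E → W) (x : E) : W :=
  (1 / 2 : ℂ) • (fderiv ℝ f x v + Complex.I • fderiv ℝ f x (Complex.I • v))

variable {v : E} {f g : E → W} {x : E}

lemma dbv_congr (h : f =ᶠ[nhds x] g) : dbv v f x = dbv v g x := by
  unfold dbv; rw [h.fderiv_eq]

lemma dbv_const (c : W) : dbv v (fun _ : E => c) x = 0 := by
  simp [dbv]

lemma dbv_add (hf : DifferentiableAt ℝ f x) (hg : DifferentiableAt ℝ g x) :
    dbv v (fun y => f y + g y) x = dbv v f x + dbv v g x := by
  unfold dbv
  rw [fderiv_fun_add hf hg]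
  simp only [ContinuousLinearMap.add_apply]
  module

lemma dbv_neg : dbv v (fun y => - f y) x = - dbv v f x := by
  unfold dbv
  rw [fderiv_fun_neg]
  simp only [ContinuousLinearMap.neg_apply]
  module

lemma dbv_sub (hf : DifferentiableAt ℝ f x) (hg : DifferentiableAt ℝ g x) :
    dbv v (fun y => f y - g y) x = dbv v f x - dbv v g x := by
  unfold dbv
  rw [fderiv_fun_sub hf hg]
  simp only [ContinuousLinearMap.sub_apply]
  module

lemma dbv_sum {ι : Type*} (s : Finset ι) {f : ι → E → W}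
    (hf : ∀ i ∈ s, DifferentiableAt ℝ (f i) x) :
    dbv v (fun y => ∑ i ∈ s, f i y) x = ∑ i ∈ s, dbv v (f i) x := by
  unfold dbv
  rw [fderiv_fun_sum hf]
  simp only [ContinuousLinearMap.sum_apply, Finset.smul_sum, Finset.sum_add_distrib, smul_add]

/-- A complex linear function of the value. -/
lemma dbv_clm {W' : Type*} [NormedAddCommGroup W'] [NormedSpace ℂ W'] (L : W →L[ℂ] W')
    (hf : DifferentiableAt ℝ f x) : dbv v (fun y => L (f y)) x = L (dbv v f x) := by
  unfold dbv
  have h1 : fderiv ℝ (fun y => L (f y)) x = (L.restrictScalars ℝ).comp (fderiv ℝ f x) :=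
    ((L.restrictScalars ℝ).hasFDerivAt.comp x hf.hasFDerivAt).fderiv
  rw [h1]
  simp [map_add, map_smul]

lemma dbv_smul {c : E → ℂ} (hc : DifferentiableAt ℝ c x) (hf : DifferentiableAt ℝ f x) :
    dbv v (fun y => c y • f y) x = dbv v c x • f x + c x • dbv v f x := by
  unfold dbv
  have h1 : fderiv ℝ (fun y => c y • f y) x = c x • fderiv ℝ f x + (fderiv ℝ c x).smulRight (f x) :=
    fderiv_fun_smul hc hf
  rw [h1]
  simp only [ContinuousLinearMap.add_apply, ContinuousLinearMap.smul_apply,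
    ContinuousLinearMap.smulRight_apply, smul_eq_mul]
  module

lemma dbv_mul {A : Type*} [NormedRing A] [NormedAlgebra ℂ A] {f g : E → A}
    (hf : DifferentiableAt ℝ f x) (hg : DifferentiableAt ℝ g x) :
    dbv v (fun y => f y * g y) x = dbv v f x * g x + f x * dbv v g x := by
  unfold dbv
  rw [fderiv_fun_mul' hf hg]
  simp only [ContinuousLinearMap.add_apply, ContinuousLinearMap.smul_apply, smul_eq_mul,
    MulOpposite.smul_eq_mul_unop, ContinuousLinearMap.smul_apply, MulOpposite.unop_op]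
  simp only [smul_add, mul_add, add_mul, mul_smul_comm, smul_mul_assoc, smul_smul]
  abel

end gen

end Vale.Agent.P267.H315
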